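import Vale.Agent.P269.G1I.H660.Key
import Vale.Agent.P269.G1I.H920.Closed

/-! **[A-C]**: the Euler fields act on `E^n (de 2)` like vector fields on the line. -/

namespace Vale.Agent.P269.G1.H660

open Finset.HasAntidiagonal (antidiagonal)

variable {R A O : Type*} [CommRing R] [Algebra ℚ R] [CommRing A] [Algebra R A]
    [Ring O] [Algebra R O] (S : Frob R A O)

theorem bracket (m n : ℕ) : S.nab (S.E ^ m) (S.E ^ n) - S.nab (S.E ^ n) (S.E ^ m) =
    ((n : A) - m) * S.E ^ (m + n - 1) := by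
  have h1 := H920.nab_pow S (S.E ^ m) n
  have h2 := H920.nab_pow S (S.E ^ n) m
  have h3 := H920.P_symm S n m
  have e1 : (n : A) * (S.E ^ m * S.E ^ (n - 1)) = (n : A) * S.E ^ (m + n - 1) := by
    rcases n with _ | n
    · simp
    · rw [← pow_add]; rfl
  have e2 : (m : A) * (S.E ^ n * S.E ^ (m - 1)) = (m : A) * S.E ^ (m + n - 1) := by
    rcases m with _ | m
    · simp
    · rw [← pow_add]; congr 2; omega
  rw [h1, h2, h3, e1, e2]; ring

theorem int_smul (m n : ℕ) (v : A) : (((n : R) - m) • v : A) = ((n : A) - m) * v := by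
  rw [sub_smul, Nat.cast_smul_eq_nsmul, Nat.cast_smul_eq_nsmul, nsmul_eq_mul, nsmul_eq_mul, sub_mul]

theorem der_bracket (m n : ℕ) (g : R) : S.der (S.E ^ m) (S.der (S.E ^ n) g)
    - S.der (S.E ^ n) (S.der (S.E ^ m) g) = ((n : R) - m) * S.der (S.E ^ (m + n - 1)) g := by
  rw [S.der_comm, bracket, ← int_smul (R := R), S.der_smul_left]

theorem G_bracket (m n : ℕ) : S.der (S.E ^ m) (S.G (S.E ^ n)) - S.der (S.E ^ n) (S.G (S.E ^ m)) =
    ((n : R) - m) * S.G (S.E ^ (m + n - 1)) := by
  have h := S.G_symm (S.E ^ m) (S.E ^ n)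
  have h2 : S.G (S.nab (S.E ^ m) (S.E ^ n) - S.nab (S.E ^ n) (S.E ^ m)) =
      ((n : R) - m) * S.G (S.E ^ (m + n - 1)) := by
    rw [bracket, ← int_smul (R := R), map_smul, smul_eq_mul]
  rw [map_sub] at h2
  linear_combination h + h2

theorem de_bracket (m n : ℕ) : S.der (S.E ^ m) (S.de n) - S.der (S.E ^ n) (S.de m) =
    ((n : R) - m) * S.de (m + n - 1) := by
  have h1 := G_bracket S m n
  have h2 := H920.closed S m n
  unfold Frob.de
  rw [der_sub, der_sub]
  linear_combination h1 - h2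

theorem ncancel (k : ℕ) (hk : k ≠ 0) {x y : R} (h : (k : R) * x = (k : R) * y) : x = y := by
  have h1 : algebraMap ℚ R (1 / k) * (k : R) = 1 := by
    rw [← map_natCast (algebraMap ℚ R) k, ← map_mul, one_div, inv_mul_cancel₀, map_one]
    exact_mod_cast hk
  have h2 := congrArg (fun z => algebraMap ℚ R (1 / k) * z) h
  simp only [← mul_assoc, h1, one_mul] at h2
  exact h2

theorem de_zero' : S.de 0 = 0 := by
  unfold Frob.de Frob.om
  rw [Finset.Nat.antidiagonal_zero, Finset.sum_singleton, pow_zero, S.G_one]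
  simp

/-- the basic computation -/
theorem clos (hG : S.Getzler) (m k : ℕ) :
    ((k + 1 : ℕ) : R) * S.der (S.E ^ m) (S.der (S.E ^ k) (S.de 2)) =
      S.der (S.E ^ (k + 1)) (2 * S.de m) + 2 * (((k + 1 : ℕ) : R) - m) * S.de (m + k) := by
  have h1 := key S hG k
  have h2 := de_bracket S m (k + 1)
  have h3 : S.der (S.E ^ m) (((k + 1 : ℕ) : R) * S.der (S.E ^ k) (S.de 2)) =
      S.der (S.E ^ m) (2 * S.de (k + 1)) := by
    congr 1
    rw [← h1]; push_cast; ring
  have e2 := der_natmul S (S.E ^ m) 2 (S.de (k + 1))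
  have e2' := der_natmul S (S.E ^ (k + 1)) 2 (S.de m)
  push_cast at e2 e2'
  rw [der_natmul, e2] at h3
  rw [show m + (k + 1) - 1 = m + k from by omega] at h2
  rw [h3, e2']
  linear_combination 2 * h2

theorem closure (hG : S.Getzler) (h1 : S.de 1 = 0) (m n : ℕ) :
    S.der (S.E ^ m) (S.der (S.E ^ n) (S.de 2)) =
      (n : R) * S.der (S.E ^ (m + n - 1)) (S.de 2) := by
  have k := key S hG
  have c2 : ∀ n : ℕ, S.der (S.E ^ 2) (S.der (S.E ^ n) (S.de 2)) =
      (n : R) * S.der (S.E ^ (n + 1)) (S.de 2) := by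
    intro n
    refine ncancel (n + 1) (Nat.succ_ne_zero _) ?_
    rw [clos S hG]
    have h := k (n + 1)
    have e2' := der_natmul S (S.E ^ (n + 1)) 2 (S.de 2)
    push_cast at e2' h
    rw [e2', add_comm 2 n]
    push_cast
    linear_combination (-((n : R) - 1)) * h
  have n2 : ∀ j : ℕ, S.der (S.E ^ j) (S.der (S.E ^ 2) (S.de 2)) =
      2 * S.der (S.E ^ (j + 1)) (S.de 2) := by
    intro j
    have h := der_bracket S 2 j (S.de 2)
    rw [c2, show 2 + j - 1 = j + 1 from by omega] at h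
    push_cast at h
    linear_combination -h
  have c0 : ∀ n : ℕ, S.der (S.E ^ 0) (S.der (S.E ^ n) (S.de 2)) =
      (n : R) * S.der (S.E ^ (0 + n - 1)) (S.de 2) := by
    intro n
    refine ncancel (n + 1) (Nat.succ_ne_zero _) ?_
    rw [clos S hG, de_zero', mul_zero, der_zero]
    rcases n with _ | n
    · simp [de_zero']
    · have h := k n
      rw [show 0 + (n + 1) = n + 1 from by omega, Nat.add_sub_cancel]
      push_cast
      linear_combination (-((n : R) + 1 + 1)) * h
  have c1 : ∀ n : ℕ, S.der (S.E ^ 1) (S.der (S.E ^ n) (S.de 2)) =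
      (n : R) * S.der (S.E ^ n) (S.de 2) := by
    intro n
    refine ncancel (n + 1) (Nat.succ_ne_zero _) ?_
    rw [clos S hG, h1, mul_zero, der_zero, add_comm 1 n]
    have h := k n
    push_cast
    linear_combination (-(n : R)) * h
  have c3 : ∀ n : ℕ, S.der (S.E ^ 3) (S.der (S.E ^ n) (S.de 2)) =
      (n : R) * S.der (S.E ^ (n + 2)) (S.de 2) := by
    intro n
    refine ncancel (n + 1) (Nat.succ_ne_zero _) ?_
    rw [clos S hG]
    have h3 := k 2
    have h := k (n + 2)
    have e : S.der (S.E ^ (n + 1)) (2 * S.de 3) = 3 * (2 * S.der (S.E ^ (n + 2)) (S.de 2)) := by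
      rw [← n2 (n + 1)]
      have := der_natmul S (S.E ^ (n + 1)) 3 (S.der (S.E ^ 2) (S.de 2))
      push_cast at this
      rw [← this]
      congr 1
      rw [← h3]; norm_num
    rw [e, show 3 + n = n + 2 + 1 from by omega]
    push_cast at h ⊢
    linear_combination (-((n : R) - 2)) * h
  have main : ∀ j n : ℕ, S.der (S.E ^ (j + 3)) (S.der (S.E ^ n) (S.de 2)) =
      (n : R) * S.der (S.E ^ (j + n + 2)) (S.de 2) := by
    intro j
    induction j with
    | zero => intro n; rw [zero_add, c3, zero_add]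
    | succ j ih =>
      intro n
      refine ncancel (j + 1) (Nat.succ_ne_zero _) ?_
      have h := der_bracket S 2 (j + 3) (S.der (S.E ^ n) (S.de 2))
      rw [ih, c2 n] at h
      have e1 := der_natmul S (S.E ^ 2) n (S.der (S.E ^ (j + n + 2)) (S.de 2))
      have e2 := der_natmul S (S.E ^ (j + 3)) n (S.der (S.E ^ (n + 1)) (S.de 2))
      rw [e1, e2, c2, ih, show 2 + (j + 3) - 1 = j + 1 + 3 from by omega,
        show j + (n + 1) + 2 = j + n + 2 + 1 from by omega] at h
      rw [show j + 1 + n + 2 = j + n + 2 + 1 from by omega]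
      push_cast at h ⊢
      linear_combination -h
  rcases m with _ | _ | _ | m
  · exact c0 n
  · rw [show (0 : ℕ) + 1 = 1 from rfl, c1, Nat.add_comm 1 n, Nat.add_sub_cancel]
  · rw [show (0 : ℕ) + 1 + 1 = 2 from rfl, c2, show 2 + n - 1 = n + 1 from by omega]
  · have := main m n
    rw [show m + 1 + 1 + 1 = m + 3 from rfl, this, show m + 3 + n - 1 = m + n + 2 from by omega]

end Vale.Agent.P269.G1.H660
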