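import Vale.Agent.P269.G1I.H660.Basic
import Vale.Agent.P269.G1I.H660.Perm

/-! Getzler's relation with insertions `x, E, E, w`, symmetrised. -/

namespace Vale.Agent.P269.G1.H660

variable {R A O : Type*} [CommRing R] [Algebra ℚ R] [CommRing A] [Algebra R A]
    [Ring O] [Algebra R O] (S : Frob R A O)

theorem H_comm (x y : A) : S.H x y = S.H y x := S.G_symm x y

theorem sumH (x e w : A) :
    ∑ σ : Equiv.Perm (Fin 4), S.H ((![x, e, e, w] : Fin 4 → A) (σ 0) * (![x, e, e, w] : Fin 4 → A) (σ 1))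
      ((![x, e, e, w] : Fin 4 → A) (σ 2) * (![x, e, e, w] : Fin 4 → A) (σ 3)) =
    8 * (2 * S.H (x * e) (e * w) + S.H (x * w) (e * e)) := by
  rw [sum_perm_four (fun a b c d => S.H ((![x, e, e, w] : Fin 4 → A) a * (![x, e, e, w] : Fin 4 → A) b)
      ((![x, e, e, w] : Fin 4 → A) c * (![x, e, e, w] : Fin 4 → A) d))]
  simp only [Matrix.cons_val]
  rw [mul_comm e x, mul_comm w e, mul_comm w x, H_comm S (e * w) (x * e), H_comm S (e * e) (x * w)]
  ring

theorem sumH3 (x e w : A) :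
    ∑ σ : Equiv.Perm (Fin 4), S.H ((![x, e, e, w] : Fin 4 → A) (σ 0) * (![x, e, e, w] : Fin 4 → A) (σ 1)
      * (![x, e, e, w] : Fin 4 → A) (σ 2)) ((![x, e, e, w] : Fin 4 → A) (σ 3)) =
    6 * (S.H (x * e * e) w + S.H (e * e * w) x + 2 * S.H (x * e * w) e) := by
  rw [sum_perm_four (fun a b c d => S.H ((![x, e, e, w] : Fin 4 → A) a * (![x, e, e, w] : Fin 4 → A) b
      * (![x, e, e, w] : Fin 4 → A) c) ((![x, e, e, w] : Fin 4 → A) d))]
  simp only [Matrix.cons_val]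
  have h1 : e * x * e = x * e * e := by ring
  have h2 : e * e * x = x * e * e := by ring
  have h3 : e * w * e = e * e * w := by ring
  have h4 : w * e * e = e * e * w := by ring
  have h5 : x * w * e = x * e * w := by ring
  have h6 : e * x * w = x * e * w := by ring
  have h7 : e * w * x = x * e * w := by ring
  have h8 : w * x * e = x * e * w := by ring
  have h9 : w * e * x = x * e * w := by ring
  rw [h1, h2, h3, h4, h5, h6, h7, h8, h9]
  ring

theorem sumc4 (x e w : A) :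
    ∑ σ : Equiv.Perm (Fin 4), S.G (S.c4 ((![x, e, e, w] : Fin 4 → A) (σ 0) * (![x, e, e, w] : Fin 4 → A) (σ 1))
      ((![x, e, e, w] : Fin 4 → A) (σ 2)) ((![x, e, e, w] : Fin 4 → A) (σ 3))) =
    4 * (2 * S.G (S.c4 (x * e) e w) + S.G (S.c4 (x * w) e e) + S.G (S.c4 (e * e) x w)
      + 2 * S.G (S.c4 (e * w) e x)) := by
  rw [sum_perm_four (fun a b c d => S.G (S.c4 ((![x, e, e, w] : Fin 4 → A) a * (![x, e, e, w] : Fin 4 → A) b)
      ((![x, e, e, w] : Fin 4 → A) c) ((![x, e, e, w] : Fin 4 → A) d)))]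
  simp only [Matrix.cons_val]
  rw [mul_comm e x, mul_comm w e, mul_comm w x, c4_comm23 S (x * e) w e, c4_comm23 S (e * e) w x,
    c4_comm23 S (e * w) x e]
  ring

theorem sumc4m (x e w : A) :
    ∑ σ : Equiv.Perm (Fin 4), S.G (S.c4 ((![x, e, e, w] : Fin 4 → A) (σ 0))
      ((![x, e, e, w] : Fin 4 → A) (σ 1)) ((![x, e, e, w] : Fin 4 → A) (σ 2)) *
        (![x, e, e, w] : Fin 4 → A) (σ 3)) =
    6 * (S.G (S.c4 e e w * x) + 2 * S.G (S.c4 x e w * e) + S.G (S.c4 x e e * w)) := by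
  rw [sum_perm_four (fun a b c d => S.G (S.c4 ((![x, e, e, w] : Fin 4 → A) a)
      ((![x, e, e, w] : Fin 4 → A) b) ((![x, e, e, w] : Fin 4 → A) c) * (![x, e, e, w] : Fin 4 → A) d))]
  simp only [Matrix.cons_val]
  have h1 : S.c4 e w e = S.c4 e e w := c4_comm23 S _ _ _
  have h2 : S.c4 w e e = S.c4 e e w := by rw [c4_comm12, h1]
  have h3 : S.c4 x w e = S.c4 x e w := c4_comm23 S _ _ _
  have h4 : S.c4 e x w = S.c4 x e w := c4_comm12 S _ _ _
  have h5 : S.c4 e w x = S.c4 x e w := by rw [c4_comm23, h4]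
  have h6 : S.c4 w x e = S.c4 x e w := by rw [c4_comm12, h3]
  have h7 : S.c4 w e x = S.c4 x e w := by rw [c4_comm12, h5]
  have h8 : S.c4 e x e = S.c4 x e e := c4_comm12 S _ _ _
  have h9 : S.c4 e e x = S.c4 x e e := by rw [c4_comm23, h8]
  rw [h1, h2, h3, h4, h5, h6, h7, h8, h9]
  ring

theorem sumc4O (x e w : A) :
    ∑ σ : Equiv.Perm (Fin 4), S.str (S.c4O ((![x, e, e, w] : Fin 4 → A) (σ 3))
      (S.c4 ((![x, e, e, w] : Fin 4 → A) (σ 0)) ((![x, e, e, w] : Fin 4 → A) (σ 1))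
        ((![x, e, e, w] : Fin 4 → A) (σ 2)))) =
    6 * (Hth S x (S.c4 e e w) + 2 * Hth S e (S.c4 x e w) + Hth S w (S.c4 x e e)) := by
  rw [sum_perm_four (fun a b c d => S.str (S.c4O ((![x, e, e, w] : Fin 4 → A) d)
      (S.c4 ((![x, e, e, w] : Fin 4 → A) a) ((![x, e, e, w] : Fin 4 → A) b)
        ((![x, e, e, w] : Fin 4 → A) c))))]
  simp only [Matrix.cons_val]
  have h1 : S.c4 e w e = S.c4 e e w := c4_comm23 S _ _ _
  have h2 : S.c4 w e e = S.c4 e e w := by rw [c4_comm12, h1]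
  have h3 : S.c4 x w e = S.c4 x e w := c4_comm23 S _ _ _
  have h4 : S.c4 e x w = S.c4 x e w := c4_comm12 S _ _ _
  have h5 : S.c4 e w x = S.c4 x e w := by rw [c4_comm23, h4]
  have h6 : S.c4 w x e = S.c4 x e w := by rw [c4_comm12, h3]
  have h7 : S.c4 w e x = S.c4 x e w := by rw [c4_comm12, h5]
  have h8 : S.c4 e x e = S.c4 x e e := c4_comm12 S _ _ _
  have h9 : S.c4 e e x = S.c4 x e e := by rw [c4_comm23, h8]
  rw [h1, h2, h3, h4, h5, h6, h7, h8, h9]
  unfold Hth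
  ring

theorem sumc5 (x e w : A) :
    ∑ σ : Equiv.Perm (Fin 4), S.str (S.C (S.c5 ((![x, e, e, w] : Fin 4 → A) (σ 0))
      ((![x, e, e, w] : Fin 4 → A) (σ 1)) ((![x, e, e, w] : Fin 4 → A) (σ 2))
        ((![x, e, e, w] : Fin 4 → A) (σ 3)))) =
    24 * th S (S.c5 e e x w) := by
  rw [sum_perm_four (fun a b c d => S.str (S.C (S.c5 ((![x, e, e, w] : Fin 4 → A) a)
      ((![x, e, e, w] : Fin 4 → A) b) ((![x, e, e, w] : Fin 4 → A) c)
        ((![x, e, e, w] : Fin 4 → A) d))))]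
  simp only [Matrix.cons_val]
  have h1 : S.c5 e e w x = S.c5 e e x w := c5_comm34 S _ _ _ _
  have h2 : S.c5 e x e w = S.c5 e e x w := c5_comm23 S _ _ _ _
  have h3 : S.c5 e w e x = S.c5 e e x w := by rw [c5_comm23, h1]
  have h4 : S.c5 e x w e = S.c5 e e x w := by rw [c5_comm34, h2]
  have h5 : S.c5 e w x e = S.c5 e e x w := by rw [c5_comm34, h3]
  have h6 : S.c5 x e e w = S.c5 e e x w := by rw [c5_comm12, h2]
  have h7 : S.c5 w e e x = S.c5 e e x w := by rw [c5_comm12, h3]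
  have h8 : S.c5 x e w e = S.c5 e e x w := by rw [c5_comm12, h4]
  have h9 : S.c5 w e x e = S.c5 e e x w := by rw [c5_comm12, h5]
  have h10 : S.c5 x w e e = S.c5 e e x w := by rw [c5_comm23, h8]
  have h11 : S.c5 w x e e = S.c5 e e x w := by rw [c5_comm23, h9]
  rw [h1, h2, h3, h4, h5, h6, h7, h8, h9, h10, h11]
  unfold th
  ring

theorem sumOO (x e w : A) :
    ∑ σ : Equiv.Perm (Fin 4), S.str (S.c4O ((![x, e, e, w] : Fin 4 → A) (σ 0))
      ((![x, e, e, w] : Fin 4 → A) (σ 1)) * S.c4O ((![x, e, e, w] : Fin 4 → A) (σ 2))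
        ((![x, e, e, w] : Fin 4 → A) (σ 3))) =
    8 * (2 * S.str (S.c4O x e * S.c4O w e) + S.str (S.c4O x w * S.c4O e e)) := by
  rw [sum_perm_four (fun a b c d => S.str (S.c4O ((![x, e, e, w] : Fin 4 → A) a)
      ((![x, e, e, w] : Fin 4 → A) b) * S.c4O ((![x, e, e, w] : Fin 4 → A) c)
        ((![x, e, e, w] : Fin 4 → A) d)))]
  simp only [Matrix.cons_val]
  rw [c4O_comm S e x, c4O_comm S e w, c4O_comm S w x, S.str_comm (S.c4O w e) (S.c4O x e),
    S.str_comm (S.c4O e e) (S.c4O x w)]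
  ring

/-- Getzler's relation for `x, E, E, w` -/
theorem getz (hG : S.Getzler) (x w : A) :
    24 * (2 * S.H (x * S.E) (S.E * w) + S.H (x * w) (S.E * S.E) - S.H (x * S.E * S.E) w
      - S.H (S.E * S.E * w) x - 2 * S.H (x * S.E * w) S.E)
    - 4 * (2 * S.G (S.c4 (x * S.E) S.E w) + S.G (S.c4 (x * w) S.E S.E) + S.G (S.c4 (S.E * S.E) x w)
      + 2 * S.G (S.c4 (S.E * w) S.E x))
    + 12 * (S.G (S.c4 S.E S.E w * x) + 2 * S.G (S.c4 x S.E w * S.E) + S.G (S.c4 x S.E S.E * w))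
    + (Hth S x (S.c4 S.E S.E w) + 2 * Hth S S.E (S.c4 x S.E w) + Hth S w (S.c4 x S.E S.E))
    + th S (S.c5 S.E S.E x w)
    - 4 * S.str (S.c4O x S.E * S.c4O w S.E) - 2 * S.str (S.c4O x w * S.c4O S.E S.E) = 0 := by
  have h := hG ![x, S.E, S.E, w]
  unfold Frob.term at h
  simp only [Function.comp_apply] at h
  rw [Finset.sum_sub_distrib, Finset.sum_add_distrib, Finset.sum_add_distrib,
    Finset.sum_add_distrib, Finset.sum_sub_distrib, Finset.sum_sub_distrib,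
    ← Finset.mul_sum, ← Finset.mul_sum, ← Finset.mul_sum, ← Finset.smul_sum, ← Finset.smul_sum,
    ← Finset.smul_sum, sumH, sumH3, sumc4, sumc4m, sumc4O, sumc5, sumOO] at h
  have h6 : ∀ a : R, (1 / 6 : ℚ) • (6 * a) = a := by
    intro a
    rw [Algebra.smul_def, ← mul_assoc, ← map_ofNat (algebraMap ℚ R) 6, ← map_mul]
    norm_num
  have h24 : ∀ a : R, (1 / 24 : ℚ) • (24 * a) = a := by
    intro a
    rw [Algebra.smul_def, ← mul_assoc, ← map_ofNat (algebraMap ℚ R) 24, ← map_mul]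
    norm_num
  have h4 : ∀ a : R, (1 / 4 : ℚ) • (8 * a) = 2 * a := by
    intro a
    rw [Algebra.smul_def, ← mul_assoc, ← map_ofNat (algebraMap ℚ R) 8, ← map_mul,
      ← map_ofNat (algebraMap ℚ R) 2]
    norm_num
  rw [h6, h24, h4] at h
  linear_combination h

end Vale.Agent.P269.G1.H660
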