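import Vale.Agent.P269.G1I.H660.Gpart
import Vale.Agent.P269.G1I.H660.Theta

/-! **[A-K]**: Getzler's relation with Euler fields. -/

namespace Vale.Agent.P269.G1.H660

open Finset.HasAntidiagonal (antidiagonal)

variable {R A O : Type*} [CommRing R] [Algebra ℚ R] [CommRing A] [Algebra R A]
    [Ring O] [Algebra R O] (S : Frob R A O)

theorem th_dd (n : ℕ) : ∑ p ∈ antidiagonal (n + 1),
    (th S (S.E ^ p.2 * S.d (S.d (S.E ^ p.1))) - th S (S.d (S.E ^ p.1) * S.d (S.E ^ p.2))) =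
    ∑ p ∈ antidiagonal n, (th S (S.E ^ p.2 * S.d (S.d (S.E ^ (p.1 + 1))))
      - th S (S.d (S.E ^ (p.1 + 1)) * S.d (S.E ^ p.2))) := by
  rw [Finset.Nat.sum_antidiagonal_succ]
  rw [pow_zero, S.d_one, map_zero, mul_zero, zero_mul, th_zero, sub_zero, zero_add]

theorem star (s : ℕ) : ∑ p ∈ antidiagonal s,
    (Hth S (S.E ^ p.1) (Gam S S.E (S.E ^ p.2)) + th S (S.c4 (S.d S.E) (S.E ^ p.1) (S.E ^ p.2))
      + (th S (S.E ^ p.2 * S.d (S.d (S.E ^ p.1))) - th S (S.d (S.E ^ p.1) * S.d (S.E ^ p.2)))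
      - S.str (S.c4O (S.E ^ p.1) (S.E ^ p.2) * S.C (S.d S.E))
      - S.str (S.C (S.E ^ p.1) * S.c4O (S.d S.E) (S.E ^ p.2))) = 0 := by
  cases s with
  | zero =>
    rw [Finset.Nat.antidiagonal_zero, Finset.sum_singleton]
    simp only [pow_zero, Gam_E_one, c4_one, c4O_one, S.d_one, map_zero, mul_zero, zero_mul, th_zero]
    rw [Hth_comm, Hth_zero_left]; ring
  | succ n =>
    rw [Finset.sum_sub_distrib, Finset.sum_sub_distrib, Finset.sum_add_distrib,
      Finset.sum_add_distrib, sumq1, sumq3, sumq9, sumq10, th_dd, ← Finset.sum_add_distrib,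
      ← Finset.sum_add_distrib, ← Finset.sum_sub_distrib, ← Finset.sum_sub_distrib]
    refine Finset.sum_eq_zero fun p _ => ?_
    have h := point S p.1 p.2
    have h1 : th S (S.E ^ p.2 * S.d (Z S p.1)) =
        (p.1 + 1) • th S (S.E ^ p.2 * S.d (S.E ^ p.1 * S.d S.E))
        - th S (S.E ^ p.2 * S.d (S.d (S.E ^ (p.1 + 1)))) := by
      unfold Z
      rw [map_sub, map_nsmul, mul_sub, th_sub, mul_smul_comm, th_nsmul]
    have h2 : th S (Z S p.1 * S.d (S.E ^ p.2)) =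
        (p.1 + 1) • th S (S.E ^ p.1 * S.d S.E * S.d (S.E ^ p.2))
        - th S (S.d (S.E ^ (p.1 + 1)) * S.d (S.E ^ p.2)) := by
      unfold Z
      rw [sub_mul, th_sub, smul_mul_assoc, th_nsmul]
    rw [h, h1, h2, smul_sub, smul_sub]
    simp only [nsmul_eq_mul]
    ring

/-- the right-hand side, one term -/
def P (x w : A) : R := 12 * S.str (S.mu * S.mu * S.C (x * w)) + Hth S (S.d S.E) (x * w)
  + th S (S.d (x * w)) - th S (S.d (S.d (x * w))) - 12 * S.str (S.mu * S.C x * S.mu * S.C w)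
  - 2 * th S (x * S.d w)

/-- the antisymmetric part -/
def f (x w : A) : R := - Hth S x (Gam S S.E w) + S.str (S.C x * S.c4O (S.d S.E) w)
  + th S (x * S.d w) + th S (x * S.d (S.d w))

theorem Hth_mul (y z w : A) : Hth S y (z * w) = S.str (S.C w * S.c4O y z)
    + S.str (S.C z * S.c4O y w) - th S (S.c4 y z w) := by
  unfold Hth th
  rw [c4O_mul, map_sub, map_add, S.str_comm (S.c4O y z)]

theorem Qpoint (x w : A) : Q S x w = P S x w +
    (2 * (Hth S x (Gam S S.E w) + th S (S.c4 (S.d S.E) x w)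
      + (th S (w * S.d (S.d x)) - th S (S.d x * S.d w))
      - S.str (S.c4O x w * S.C (S.d S.E))
      - S.str (S.C x * S.c4O (S.d S.E) w))
    + 2 * (S.str (K S x * K S w) - S.str (S.c4O x w * K S S.E))
    + (f S x w - f S w x)) := by
  unfold Q P f
  rw [c5_EE, str_DD, Hth_mul, Gam_comm S x S.E]
  have h1 : S.str (S.c4O x w * D S S.E) = S.str (S.c4O x w * K S S.E)
      + S.str (S.c4O x w * S.C (S.d S.E)) := by
    rw [D_eq, mul_add, map_add]
  have h2 := str_KK S x w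
  have h3 : th S (S.d (Gam S x w)) = th S (S.d (x * S.d w)) + th S (S.d (w * S.d x))
      - th S (S.d (S.d (x * w))) := by
    unfold Gam; rw [map_sub, map_add, th_sub, th_add]
  have h4 : th S (Gam S (S.d x) w) = th S (S.d x * S.d w) + th S (w * S.d (S.d x))
      - th S (S.d (w * S.d x)) := by
    unfold Gam; rw [mul_comm (S.d x) w, th_sub, th_add]
  have h5 : th S (Gam S x (S.d w)) = th S (x * S.d (S.d w)) + th S (S.d x * S.d w)
      - th S (S.d (x * S.d w)) := by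
    unfold Gam; rw [mul_comm (S.d w) (S.d x), th_sub, th_add]
  have h6 : th S (Gam S x w) = th S (x * S.d w) + th S (w * S.d x) - th S (S.d (x * w)) := by
    unfold Gam; rw [th_sub, th_add]
  rw [th_sub, th_sub, th_add, th_add, h1, h3, h4, h5, h6, h2]
  ring

theorem sumQ (s : ℕ) : ∑ p ∈ antidiagonal s, Q S (S.E ^ p.1) (S.E ^ p.2) =
    ∑ p ∈ antidiagonal s, P S (S.E ^ p.1) (S.E ^ p.2) := by
  have h1 := star S s
  have h2 := sumq8 S s
  have h3 : ∑ p ∈ antidiagonal s, f S (S.E ^ p.2) (S.E ^ p.1) =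
      ∑ p ∈ antidiagonal s, f S (S.E ^ p.1) (S.E ^ p.2) :=
    Finset.Nat.sum_antidiagonal_swap (f := fun p : ℕ × ℕ => f S (S.E ^ p.1) (S.E ^ p.2))
  rw [Finset.sum_congr rfl fun p _ => Qpoint S (S.E ^ p.1) (S.E ^ p.2), Finset.sum_add_distrib,
    Finset.sum_add_distrib, Finset.sum_add_distrib, ← Finset.mul_sum, ← Finset.mul_sum, h1,
    Finset.sum_sub_distrib, h2, Finset.sum_sub_distrib, h3]
  ring

theorem om_succ (s : ℕ) : 48 * S.om (s + 1) = ∑ p ∈ antidiagonal s,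
    (- 12 * S.str (S.mu * S.C (S.E ^ p.1) * S.mu * S.C (S.E ^ p.2))
      - 2 * th S (S.E ^ p.1 * S.d (S.E ^ p.2))
      + 2 * algebraMap ℚ R S.rho * th S (S.E ^ s)) := by
  unfold Frob.om
  rw [Finset.Nat.sum_antidiagonal_succ]
  simp only [if_true, zero_add]
  rw [Finset.mul_sum]
  refine Finset.sum_congr rfl fun p hp => ?_
  rw [Finset.HasAntidiagonal.mem_antidiagonal] at hp
  rw [if_neg (Nat.succ_ne_zero _), Nat.add_sub_cancel, ← pow_add, hp]
  have h4 : (48 : R) * algebraMap ℚ R (1 / 4) = 12 := by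
    rw [← map_ofNat (algebraMap ℚ R) 48, ← map_mul, ← map_ofNat (algebraMap ℚ R) 12]; norm_num
  have h24 : (48 : R) * algebraMap ℚ R (1 / 24) = 2 := by
    rw [← map_ofNat (algebraMap ℚ R) 48, ← map_mul, ← map_ofNat (algebraMap ℚ R) 2]; norm_num
  rw [Algebra.smul_def, Algebra.smul_def, Algebra.smul_def]
  unfold th
  linear_combination (-S.str (S.mu * S.C (S.E ^ p.1) * S.mu * S.C (S.E ^ p.2))) * h4
    - (S.str (S.C (S.E ^ p.1 * S.d (S.E ^ p.2))) - algebraMap ℚ R S.rho * S.str (S.C (S.E ^ s))) * h24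

theorem om_two : 48 * S.om 2 = - 24 * S.str (S.mu * S.mu * S.C S.E) - 2 * th S (S.d S.E)
    + 4 * algebraMap ℚ R S.rho * th S S.E := by
  rw [om_succ, Finset.Nat.sum_antidiagonal_succ, Finset.Nat.antidiagonal_zero,
    Finset.sum_singleton]
  simp only [pow_zero, map_one, mul_one, zero_add, pow_one, S.d_one, mul_zero, th_zero, one_mul]
  have : S.str (S.mu * S.C S.E * S.mu) = S.str (S.mu * S.mu * S.C S.E) := by
    rw [S.str_comm, ← mul_assoc]
  rw [this]; ring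

theorem der_natmul (x : A) (n : ℕ) (g : R) : S.der x ((n : R) * g) = n * S.der x g := by
  induction n with
  | zero => simp [der_zero]
  | succ n ih => rw [Nat.cast_succ, add_mul, one_mul, S.der_add, ih]; ring

theorem der_str_mm (v : A) : S.der v (S.str (S.mu * S.mu * S.C S.E)) =
    S.str (S.mu * S.mu * S.C v) := by
  rw [S.der_str, S.nabO_mul, S.nabO_mul, S.nabO_mu, S.nabO_U]
  have : (0 * S.mu + S.mu * 0) * S.C S.E + S.mu * S.mu * (S.C v + S.C v * S.mu - S.mu * S.C v) =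
      S.mu * S.mu * S.C v + (S.mu * S.mu * S.C v * S.mu - S.mu * S.mu * S.mu * S.C v) := by
    noncomm_ring
  rw [this, map_add, map_sub, S.str_comm (S.mu * S.mu * S.C v) S.mu]
  simp only [mul_assoc, sub_self, add_zero]

theorem der_om_two (v : A) : 24 * S.der v (S.om 2) = - 12 * S.str (S.mu * S.mu * S.C v)
    - (Hth S v (S.d S.E) + th S (S.d v) - th S (S.d (S.d v)))
    + 2 * algebraMap ℚ R S.rho * th S v := by
  have h := congrArg (S.der v) (om_two S)
  have hr : ∀ g : R, S.der v (algebraMap ℚ R S.rho * g) = algebraMap ℚ R S.rho * S.der v g := by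
    intro g
    rw [← Algebra.smul_def, S.der_rat, Algebra.smul_def]
  have e48 := der_natmul S v 48 (S.om 2)
  have e24 := der_natmul S v 24 (S.str (S.mu * S.mu * S.C S.E))
  have e2 := der_natmul S v 2 (th S (S.d S.E))
  have e4 := der_natmul S v 4 (algebraMap ℚ R S.rho * th S S.E)
  push_cast at e48 e24 e2 e4
  have e : S.der v (-24 * S.str (S.mu * S.mu * S.C S.E) - 2 * th S (S.d S.E)
      + 4 * algebraMap ℚ R S.rho * th S S.E) = - (24 * S.str (S.mu * S.mu * S.C v))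
      - 2 * S.der v (th S (S.d S.E)) + 4 * (algebraMap ℚ R S.rho * S.der v (th S S.E)) := by
    rw [S.der_add, der_sub, neg_mul, der_neg, e24, e2, mul_assoc 4, e4, hr, der_str_mm]
  rw [e48, e, der_th, der_th, Hth_E, S.nab_d, S.nab_E, map_sub, th_sub, th_sub] at h
  have h2 : algebraMap ℚ R (1 / 2) * (2 : R) = 1 := by
    rw [← map_ofNat (algebraMap ℚ R) 2, ← map_mul]; norm_num
  have h3 := congrArg (fun z => algebraMap ℚ R (1 / 2) * z) h
  linear_combination h3 + (24 * S.der v (S.om 2) + 12 * S.str (S.mu * S.mu * S.C v)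
    + (Hth S v (S.d S.E) + th S (S.d v) - th S (S.d (S.d v)))
    - 2 * algebraMap ℚ R S.rho * th S v) * (-h2)

theorem sumP (s : ℕ) : ∑ p ∈ antidiagonal s, P S (S.E ^ p.1) (S.E ^ p.2) =
    48 * S.om (s + 1) - 24 * ((s + 1) * S.der (S.E ^ s) (S.om 2)) := by
  have h : ∀ p ∈ antidiagonal s, P S (S.E ^ p.1) (S.E ^ p.2) =
      (- 12 * S.str (S.mu * S.C (S.E ^ p.1) * S.mu * S.C (S.E ^ p.2))
      - 2 * th S (S.E ^ p.1 * S.d (S.E ^ p.2))
      + 2 * algebraMap ℚ R S.rho * th S (S.E ^ s)) + (- (24 * S.der (S.E ^ s) (S.om 2))) := by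
    intro p hp
    rw [Finset.HasAntidiagonal.mem_antidiagonal] at hp
    unfold P
    rw [← pow_add, hp, der_om_two, Hth_comm]
    ring
  rw [Finset.sum_congr rfl h, Finset.sum_add_distrib, ← om_succ, Finset.sum_const,
    Finset.Nat.card_antidiagonal, nsmul_eq_mul]
  push_cast
  ring

/-- **[A-K]** -/
theorem key (hG : S.Getzler) (s : ℕ) :
    (s + 1 : R) * S.der (S.E ^ s) (S.de 2) = 2 * S.de (s + 1) := by
  have h0 : ∀ p ∈ antidiagonal s,
      24 * ((2 * S.H (S.E ^ p.1 * S.E) (S.E * S.E ^ p.2) + S.H (S.E ^ p.1 * S.E ^ p.2) (S.E * S.E)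
      - S.H (S.E ^ p.1 * S.E * S.E) (S.E ^ p.2)
      - S.H (S.E * S.E * S.E ^ p.2) (S.E ^ p.1) - 2 * S.H (S.E ^ p.1 * S.E * S.E ^ p.2) S.E)
      + S.G (T S (S.E ^ p.1) (S.E ^ p.2))) + Q S (S.E ^ p.1) (S.E ^ p.2) = 0 := by
    intro p _
    have h1 := getz S hG (S.E ^ p.1) (S.E ^ p.2)
    have h2 := gpoint S (S.E ^ p.1) (S.E ^ p.2)
    have h3 : Q S (S.E ^ p.1) (S.E ^ p.2) =
        (Hth S (S.E ^ p.1) (S.c4 S.E S.E (S.E ^ p.2)) + 2 * Hth S S.E (S.c4 (S.E ^ p.1) S.E (S.E ^ p.2))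
          + Hth S (S.E ^ p.2) (S.c4 (S.E ^ p.1) S.E S.E))
        + th S (S.c5 S.E S.E (S.E ^ p.1) (S.E ^ p.2))
        - 4 * S.str (S.c4O (S.E ^ p.1) S.E * S.c4O (S.E ^ p.2) S.E)
        - 2 * S.str (S.c4O (S.E ^ p.1) (S.E ^ p.2) * S.c4O S.E S.E) := by
      unfold Q
      rw [c4_E', c4_E', c4_E', c4O_E, c4O_E, c4O_E, Hth_comm S S.E, Hth_E]
    rw [h3]
    linear_combination h1 - h2
  have h1 := Finset.sum_eq_zero h0
  rw [Finset.sum_add_distrib, ← Finset.mul_sum, gpart, sumQ, sumP] at h1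
  have h2 : S.de 2 = S.G (S.E ^ 2) - S.om 2 := rfl
  have h3 : S.de (s + 1) = S.G (S.E ^ (s + 1)) - S.om (s + 1) := rfl
  rw [h2, h3, der_sub]
  have h24 : algebraMap ℚ R (1 / 24) * (24 : R) = 1 := by
    rw [← map_ofNat (algebraMap ℚ R) 24, ← map_mul]; norm_num
  have h4 := congrArg (fun z => algebraMap ℚ R (1 / 24) * z) h1
  simp only [mul_zero] at h4
  linear_combination h4 - ((s + 1 : R) * (S.der (S.E ^ s) (S.G (S.E ^ 2))
    - S.der (S.E ^ s) (S.om 2)) - 2 * (S.G (S.E ^ (s + 1)) - S.om (s + 1))) * h24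

end Vale.Agent.P269.G1.H660
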