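import Vale.Agent.P269.G1I.T.H410_WTrr
import Vale.Agent.P269.G1I.ZConj
import Vale.Agent.P269.G1I.ZSpec
import Vale.Agent.P269.G1I.H819.C5a
import Vale.Agent.P269.G1I.H660.Loop0

/-! The trace of the products of the operators (for [ZF]) -/

namespace Vale.Agent.P269.G1.H660.Lp

open Finset.HasAntidiagonal (antidiagonal)
open Vale.Agent.P269.CI

variable {X : CompleteIntersection} {F : ℕ → ℕ → List (Ins X) → ℂ}

/-- constants as a ring homomorphism -/
noncomputable def cs (X : CompleteIntersection) : ℂ →+* RR X :=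
  (MvPowerSeries.C (σ := Fin (X.dim + 1))).comp (PowerSeries.C (R := ℂ))

theorem cst_eq (c : ℂ) : cst X c = cs X c := rfl

theorem smul_cs (c : ℂ) (f : RR X) : c • f = cs X c * f := by
  change c • f = MvPowerSeries.C (PowerSeries.C c) * f
  ext α d
  rw [MvPowerSeries.coeff_C_mul, PowerSeries.coeff_C_mul]
  rfl

theorem deg_ne (X : CompleteIntersection) : deg X ≠ 0 := by
  unfold deg
  have : X.degs.prod ≠ 0 := by
    rw [Ne, List.prod_eq_zero_iff]
    intro h
    have := X.degs_pos 0 h
    omega
  exact_mod_cast this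

/-- the matrix of the pairing on the ambient part -/
noncomputable def pa (k l : Fin (X.dim + 1)) : RR X := cs X (pairing X (Sum.inl k) (Sum.inl l))

/-- its inverse -/
noncomputable def pi' (k l : Fin (X.dim + 1)) : RR X := cs X (pairingInv X (Sum.inl k) (Sum.inl l))

theorem pa_symm (k l : Fin (X.dim + 1)) : (pa k l : RR X) = pa l k := by
  unfold pa pairing
  simp only [add_comm (k : ℕ)]

theorem pi_symm (k l : Fin (X.dim + 1)) : (pi' k l : RR X) = pi' l k := by
  unfold pi' pairingInv
  simp only [add_comm (k : ℕ)]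

theorem sum_pa_pi (k j : Fin (X.dim + 1)) :
    ∑ l, (pa k l : RR X) * pi' l j = if k = j then 1 else 0 := by
  unfold pa pi' pairing pairingInv
  simp only [← map_mul, ← map_sum]
  rw [Finset.sum_eq_single (⟨X.dim - k, by omega⟩ : Fin (X.dim + 1))]
  · have hk := k.2
    have hj := j.2
    rw [if_pos (by show (k : ℕ) + (X.dim - k) = X.dim; omega)]
    by_cases h : k = j
    · rw [if_pos (by show (X.dim - k) + (j : ℕ) = X.dim; subst h; omega), if_pos h,
        mul_inv_cancel₀ (deg_ne X), map_one]
    · rw [if_neg, if_neg h, mul_zero, map_zero]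
      intro h2
      apply h
      apply Fin.ext
      change X.dim - (k : ℕ) + (j : ℕ) = X.dim at h2
      omega
  · intro l _ hl
    rw [if_neg, zero_mul]
    intro h2
    apply hl
    apply Fin.ext
    show (l : ℕ) = X.dim - k
    omega
  · simp

/-- lowering after raising -/
theorem low_raise (f : Fin (X.dim + 1) → RR X) (j : Fin (X.dim + 1)) :
    ∑ k, (pa k j : RR X) * ∑ l, pi' l k * f l = f j := by
  simp only [Finset.mul_sum]
  rw [Finset.sum_comm]
  calc ∑ l : Fin (X.dim + 1), ∑ k : Fin (X.dim + 1), (pa k j : RR X) * (pi' l k * f l)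
      = ∑ l : Fin (X.dim + 1), (if j = l then 1 else 0) * f l := by
        refine Finset.sum_congr rfl fun l _ => ?_
        rw [← sum_pa_pi j l, Finset.sum_mul]
        refine Finset.sum_congr rfl fun k _ => ?_
        rw [pa_symm k j, pi_symm l k]; ring
    _ = f j := by simp

/-- raising after lowering -/
theorem raise_low (f : Fin (X.dim + 1) → RR X) (j : Fin (X.dim + 1)) :
    ∑ k, (pi' k j : RR X) * ∑ l, f l * pa l k = f j := by
  simp only [Finset.mul_sum]
  rw [Finset.sum_comm]
  calc ∑ l : Fin (X.dim + 1), ∑ k : Fin (X.dim + 1), (pi' k j : RR X) * (f l * pa l k)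
      = ∑ l : Fin (X.dim + 1), f l * (if l = j then 1 else 0) := by
        refine Finset.sum_congr rfl fun l _ => ?_
        rw [← sum_pa_pi l j, Finset.mul_sum]
        refine Finset.sum_congr rfl fun k _ => ?_
        ring
    _ = f j := by simp

variable (hF : IsGW X F) (h1 : IsGenusOne F)

/-- the basis vector -/
noncomputable abbrev eb (a : Fin (X.dim + 1)) : AA hF h1 := QA.bas (consts hF h1) a

theorem eb_apply (a k : Fin (X.dim + 1)) : (eb hF h1 a : AA hF h1) k = if k = a then 1 else 0 :=
  QA.bas_apply _ a k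

theorem sum_apply' {ι : Type*} (s : Finset ι) (f : ι → AA hF h1) (k : Fin (X.dim + 1)) :
    (∑ c ∈ s, f c : AA hF h1) k = ∑ c ∈ s, f c k :=
  Finset.sum_apply (M := fun _ : Fin (X.dim + 1) => RR X) k s f

theorem sum_bas (y : AA hF h1) : ∑ c, y c • eb hF h1 c = y := by
  funext k
  rw [sum_apply']
  calc ∑ c, (y c • eb hF h1 c : AA hF h1) k = ∑ c, y c * (if k = c then 1 else 0) := by
        refine Finset.sum_congr rfl fun c _ => ?_
        rw [← eb_apply hF h1 c k]; rfl
    _ = y k := by
        rw [Finset.sum_eq_single k]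
        · rw [if_pos rfl, mul_one]
        · intro c _ hc
          rw [if_neg (Ne.symm hc), mul_zero]
        · simp

theorem mkEnd_eb (M : Fin (X.dim + 1) → Fin (X.dim + 1) → RR X) (a k : Fin (X.dim + 1)) :
    (mkEnd hF h1 M (eb hF h1 a) : AA hF h1) k = M a k := by
  change ∑ i, eb hF h1 a i * M i k = _
  simp [eb_apply]

/-- the pairing on the ambient algebra -/
noncomputable def pr (y z : AA hF h1) : RR X := ∑ k, ∑ l, y k * z l * pa k l

theorem pr_smul (r : RR X) (y z : AA hF h1) : pr hF h1 (r • y) z = r * pr hF h1 y z := by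
  unfold pr
  simp only [Finset.mul_sum]
  refine Finset.sum_congr rfl fun k _ => Finset.sum_congr rfl fun l _ => ?_
  change r * y k * z l * _ = _
  ring

theorem pr_sum {ι : Type*} (s : Finset ι) (f : ι → AA hF h1) (z : AA hF h1) :
    pr hF h1 (∑ c ∈ s, f c) z = ∑ c ∈ s, pr hF h1 (f c) z := by
  unfold pr
  simp only [sum_apply', Finset.sum_mul]
  conv_lhs => enter [2, k]; rw [Finset.sum_comm]
  rw [Finset.sum_comm]

theorem pr_eb (y : AA hF h1) (b : Fin (X.dim + 1)) :
    pr hF h1 y (eb hF h1 b) = ∑ k, y k * pa k b := by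
  unfold pr
  refine Finset.sum_congr rfl fun k _ => ?_
  simp [eb_apply]

/-- `E`-derivative of a two-point function -/
theorem euler_part (c b : Fin (X.dim + 1)) (n m : ℕ) :
    ∑ x, Eu hF h1 x * ser (cor F 0 [hpow X x, (Sum.inl c, n), (Sum.inl b, m)]) =
      pr hF h1 (Eu hF h1 * (SS hF h1 n).1 (eb hF h1 c)) ((SS hF h1 m).1 (eb hF h1 b)) := by
  set y : AA hF h1 := (SS hF h1 n).1 (eb hF h1 c) with hy
  set z : AA hF h1 := (SS hF h1 m).1 (eb hF h1 b) with hz
  set c3 : Fin (X.dim + 1) → Fin (X.dim + 1) → Fin (X.dim + 1) → RR X := fun x i j =>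
    ser (cor F 0 [hpow X x, hpow X i, hpow X j]) with hc3
  have e1 : ∀ x, ser (cor F 0 [hpow X x, (Sum.inl c, n), (Sum.inl b, m)]) =
      ∑ i, ∑ j, y i * z j * c3 x i j := fun x => W_trr hF h1 x c b n m
  simp only [e1]
  have e2 : ∀ x i k, qc F x i k = ∑ l, pi' l k * c3 x i l := by
    intro x i k
    unfold qc
    refine Finset.sum_congr rfl fun l _ => ?_
    rw [smul_cs]; rfl
  have e3 : ∀ k, (Eu hF h1 * y : AA hF h1) k = ∑ x, ∑ i, Eu hF h1 x * y i * qc F x i k :=
    fun k => rfl
  unfold pr
  calc ∑ x, Eu hF h1 x * ∑ i, ∑ j, y i * z j * c3 x i j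
      = ∑ x, ∑ i, ∑ j, Eu hF h1 x * y i * z j * ∑ k, pa k j * ∑ l, pi' l k * c3 x i l := by
        refine Finset.sum_congr rfl fun x _ => ?_
        simp only [Finset.mul_sum (f := fun i => ∑ j, y i * z j * c3 x i j)]
        refine Finset.sum_congr rfl fun i _ => ?_
        rw [Finset.mul_sum]
        refine Finset.sum_congr rfl fun j _ => ?_
        rw [low_raise (fun l => c3 x i l) j]; ring
    _ = ∑ x, ∑ i, ∑ j, ∑ k, Eu hF h1 x * y i * z j * (pa k j * qc F x i k) := by
        refine Finset.sum_congr rfl fun x _ => Finset.sum_congr rfl fun i _ =>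
          Finset.sum_congr rfl fun j _ => ?_
        rw [Finset.mul_sum]
        refine Finset.sum_congr rfl fun k _ => ?_
        rw [e2]
    _ = ∑ k, ∑ l, (Eu hF h1 * y : AA hF h1) k * z l * pa k l := by
        simp only [e3, Finset.sum_mul]
        conv_lhs => enter [2, x, 2, i]; rw [Finset.sum_comm]
        conv_lhs => enter [2, x]; rw [Finset.sum_comm]
        rw [Finset.sum_comm]
        refine Finset.sum_congr rfl fun k _ => ?_
        conv_lhs => enter [2, x]; rw [Finset.sum_comm]
        rw [Finset.sum_comm]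
        refine Finset.sum_congr rfl fun l _ => Finset.sum_congr rfl fun x _ =>
          Finset.sum_congr rfl fun i _ => ?_
        ring

/-- `ST` is the adjoint of `SS` -/
theorem ST_apply (m : ℕ) (y : AA hF h1) (a : Fin (X.dim + 1)) :
    ((ST hF h1 m).1 y : AA hF h1) a = ∑ b, pi' b a * pr hF h1 y ((SS hF h1 m).1 (eb hF h1 b)) := by
  rcases m with _ | n
  · have e : ∀ b, pr hF h1 y ((SS hF h1 0).1 (eb hF h1 b)) = ∑ k, y k * pa k b := fun b =>
      pr_eb hF h1 y b
    simp only [e]
    exact (raise_low (fun k => y k) a).symm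
  · have e : ∀ b, pr hF h1 y ((SS hF h1 (n + 1)).1 (eb hF h1 b)) =
        ∑ k, y k * W F (Sum.inl b, n) (Sum.inl k, 0) := by
      intro b
      unfold pr
      refine Finset.sum_congr rfl fun k _ => ?_
      have e1 : ∀ l, ((SS hF h1 (n + 1)).1 (eb hF h1 b) : AA hF h1) l =
          ∑ b', pi' b' l * W F (Sum.inl b, n) (Sum.inl b', 0) := by
        intro l
        refine (mkEnd_eb hF h1 _ b l).trans ?_
        refine Finset.sum_congr rfl fun b' _ => ?_
        rw [smul_cs]; rfl
      simp only [e1]
      have e2 := low_raise (fun k => W F (Sum.inl b, n) (Sum.inl k, 0)) k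
      rw [← e2, Finset.mul_sum]
      refine Finset.sum_congr rfl fun l _ => ?_
      rw [pa_symm k l]; ring
    simp only [e]
    change ∑ i, y i * _ = _
    simp only [Finset.mul_sum]
    rw [Finset.sum_comm]
    refine Finset.sum_congr rfl fun b _ => Finset.sum_congr rfl fun k _ => ?_
    rw [smul_cs]
    change y k * (pi' b a * _) = _
    ring

end Vale.Agent.P269.G1.H660.Lp
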